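import Claimed.Agent.R152.B.Bridge

/-!
# Row 152, module C1 (= R1 of msg 14295): ascending 2-transitive data  ==>  interface of module B

INTERNAL form (no HNN theory): everything happens inside a group `Δ` with an element `τ` and subgroups `L ≤ X`;
`θ(x) = τ x τ⁻¹`.  Author: helper578.
-/

namespace Claimed.Agent.R152.C1

universe u
variable {Δ : Type u} [Group Δ]

/-- The DATA of R1. -/
structure Data (X L : Subgroup Δ) (τ j : Δ) : Prop where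
  /-- the degree homomorphism (`τ ↦ 1`, `X ↦ 0`) -/
  deg : ∃ d : Δ →* Multiplicative ℤ, d τ = Multiplicative.ofAdd 1 ∧ ∀ x ∈ X, d x = 1
  /-- `Δ = ⟨X, τ⟩` -/
  gen : ∀ Q : Subgroup Δ, X ≤ Q → τ ∈ Q → Q = ⊤
  τX : ∀ x ∈ X, τ * x * τ⁻¹ ∈ X
  LX : L ≤ X
  /-- (i) -/
  i1 : ∀ l ∈ L, τ * l * τ⁻¹ ∈ L
  /-- (i) -/
  i2 : ∀ x ∈ X, τ * x * τ⁻¹ ∈ L → x ∈ L
  jX : j ∈ X
  /-- (ii) -/
  ii : j ∉ L
  /-- (iii) -/
  iii : ∀ x ∈ X, j⁻¹ * (τ * x * τ⁻¹) * j ∈ L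
  /-- (iv) -/
  iv : ∀ w ∈ X, w ∉ L → (τ * w * τ⁻¹)⁻¹ * j * (τ * w * τ⁻¹) ∈ L
  /-- (v) -/
  v : ∀ u ∈ X, u ≠ 1 → ∃ y ∈ X, y * (τ * u * τ⁻¹) * y⁻¹ ∉ L

/-- `⟨Y, τ⟩` -/
def LD (Y : Subgroup Δ) (τ : Δ) : Subgroup Δ := Subgroup.closure ((Y : Set Δ) ∪ {τ})

theorem le_LD (Y : Subgroup Δ) (τ : Δ) : Y ≤ LD Y τ :=
  fun _ hy => Subgroup.subset_closure (Or.inl hy)

theorem τ_mem_LD (Y : Subgroup Δ) (τ : Δ) : τ ∈ LD Y τ :=
  Subgroup.subset_closure (Or.inr rfl)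

theorem conj_pow_mem {Y : Subgroup Δ} {τ : Δ} (hY : ∀ y ∈ Y, τ * y * τ⁻¹ ∈ Y) (n : ℕ) :
    ∀ y ∈ Y, τ ^ n * y * (τ ^ n)⁻¹ ∈ Y := by
  induction n with
  | zero => intro y hy; simpa using hy
  | succ n ih =>
    intro y hy
    have h := hY _ (ih y hy)
    have e : τ ^ (n + 1) * y * (τ ^ (n + 1))⁻¹ = τ * (τ ^ n * y * (τ ^ n)⁻¹) * τ⁻¹ := by
      rw [pow_succ']; group
    rw [e]; exact h

/-- Normal form of the elements of `⟨Y, τ⟩` when `τ Y τ⁻¹ ≤ Y`. -/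
theorem LD_form {Y : Subgroup Δ} {τ : Δ} (hY : ∀ y ∈ Y, τ * y * τ⁻¹ ∈ Y) {g : Δ}
    (hg : g ∈ LD Y τ) : ∃ (a b : ℕ), ∃ y ∈ Y, g = (τ ^ a)⁻¹ * y * τ ^ b := by
  have key : ∀ (a b : ℕ) (y y' : Δ), y ∈ Y → y' ∈ Y →
      ∃ (a' b' : ℕ), ∃ z ∈ Y, (τ ^ a)⁻¹ * y * τ ^ b * y' = (τ ^ a')⁻¹ * z * τ ^ b' := by
    intro a b y y' hy hy'
    refine ⟨a, b, y * (τ ^ b * y' * (τ ^ b)⁻¹), Y.mul_mem hy (conj_pow_mem hY b y' hy'), ?_⟩
    group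
  unfold LD at hg
  induction hg using Subgroup.closure_induction_right with
  | one => exact ⟨0, 0, 1, Y.one_mem, by simp⟩
  | mul_right x hx s hs ih =>
    obtain ⟨a, b, y, hy, rfl⟩ := ih
    rcases hs with hs | hs
    · exact key a b y s hy hs
    · rw [Set.mem_singleton_iff] at hs
      subst hs
      exact ⟨a, b + 1, y, hy, by rw [pow_succ]; group⟩
  | mul_inv_cancel x hx s hs ih =>
    obtain ⟨a, b, y, hy, rfl⟩ := ih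
    rcases hs with hs | hs
    · exact key a b y s⁻¹ hy (Y.inv_mem hs)
    · rw [Set.mem_singleton_iff] at hs
      subst hs
      cases b with
      | zero =>
        refine ⟨a + 1, 0, s * y * s⁻¹, hY y hy, ?_⟩
        rw [pow_succ]; group
      | succ b =>
        refine ⟨a, b, y, hy, ?_⟩
        rw [pow_succ]; group


variable {X L : Subgroup Δ} {τ j : Δ}

theorem conj_pow_mem_L_imp (D : Data X L τ j) (n : ℕ) :
    ∀ x ∈ X, τ ^ n * x * (τ ^ n)⁻¹ ∈ L → x ∈ L := by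
  induction n with
  | zero => intro x _ h; simpa using h
  | succ n ih =>
    intro x hx h
    have e : τ ^ (n + 1) * x * (τ ^ (n + 1))⁻¹ = τ * (τ ^ n * x * (τ ^ n)⁻¹) * τ⁻¹ := by
      rw [pow_succ']; group
    rw [e] at h
    exact ih x hx (D.i2 _ (conj_pow_mem D.τX n x hx) h)

/-- Degree of a normal form. -/
theorem deg_form {d : Δ →* Multiplicative ℤ} (hτ : d τ = Multiplicative.ofAdd 1)
    (hX : ∀ x ∈ X, d x = 1) (a b : ℕ) {y : Δ} (hy : y ∈ X) :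
    d ((τ ^ a)⁻¹ * y * τ ^ b) = Multiplicative.ofAdd ((b : ℤ) - a) := by
  rw [map_mul, map_mul, map_inv, map_pow, map_pow, hX y hy, hτ, mul_one, ← ofAdd_nsmul,
    ← ofAdd_nsmul, ← ofAdd_neg, ← ofAdd_add]
  congr 1
  simp
  ring

/-- `⟨L,τ⟩ ∩ X = L`. -/
theorem LD_inter (D : Data X L τ j) {g : Δ} (hg : g ∈ LD L τ) (hgX : g ∈ X) : g ∈ L := by
  obtain ⟨d, hdτ, hdX⟩ := D.deg
  obtain ⟨a, b, l, hl, rfl⟩ := LD_form D.i1 hg
  have h1 := deg_form hdτ hdX a b (D.LX hl)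
  rw [hdX _ hgX] at h1
  have hab : (b : ℤ) - a = 0 := by
    have := congrArg Multiplicative.toAdd h1
    simpa using this.symm
  have hab' : a = b := by omega
  subst hab'
  apply conj_pow_mem_L_imp D a _ hgX
  have e : τ ^ a * ((τ ^ a)⁻¹ * l * τ ^ a) * (τ ^ a)⁻¹ = l := by group
  rw [e]; exact hl

theorem j_not_mem (D : Data X L τ j) : j ∉ LD L τ := fun h => D.ii (LD_inter D h D.jX)

theorem LD_X_top (D : Data X L τ j) : LD X τ = ⊤ := D.gen _ (le_LD X τ) (τ_mem_LD X τ)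

theorem pow_mem_LD (Y : Subgroup Δ) (τ : Δ) (n : ℕ) : τ ^ n ∈ LD Y τ :=
  (LD Y τ).pow_mem (τ_mem_LD Y τ) n

/-- For `w ∈ X \ L`: `w ∈ ⟨L,τ⟩ j⁻¹ ⟨L,τ⟩`. -/
theorem X_double (D : Data X L τ j) {w : Δ} (hw : w ∈ X) (hwL : w ∉ L) :
    ∃ a ∈ LD L τ, ∃ b ∈ LD L τ, w = a * j⁻¹ * b := by
  have h4 := D.iv w hw hwL
  have h3 := D.iii w hw
  refine ⟨τ⁻¹ * (j⁻¹ * (τ * w * τ⁻¹) * j), ?_, ((τ * w * τ⁻¹)⁻¹ * j * (τ * w * τ⁻¹)) * τ, ?_, ?_⟩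
  · exact (LD L τ).mul_mem ((LD L τ).inv_mem (τ_mem_LD L τ)) (le_LD L τ h3)
  · exact (LD L τ).mul_mem (le_LD L τ h4) (τ_mem_LD L τ)
  · group

/-- `Δ = L_D ∪ L_D j⁻¹ L_D`. -/
theorem double_coset (D : Data X L τ j) (g : Δ) :
    g ∈ LD L τ ∨ ∃ a ∈ LD L τ, ∃ b ∈ LD L τ, g = a * j⁻¹ * b := by
  have hg : g ∈ LD X τ := by rw [LD_X_top D]; trivial
  obtain ⟨a, b, x, hx, rfl⟩ := LD_form D.τX hg
  by_cases hxL : x ∈ L
  · left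
    exact (LD L τ).mul_mem ((LD L τ).mul_mem ((LD L τ).inv_mem (pow_mem_LD L τ a))
      (le_LD L τ hxL)) (pow_mem_LD L τ b)
  · right
    obtain ⟨p, hp, q, hq, rfl⟩ := X_double D hx hxL
    refine ⟨(τ ^ a)⁻¹ * p, (LD L τ).mul_mem ((LD L τ).inv_mem (pow_mem_LD L τ a)) hp,
      q * τ ^ b, (LD L τ).mul_mem hq (pow_mem_LD L τ b), ?_⟩
    group

/-- At least three cosets: `θ(j)`. -/
theorem three_cosets (D : Data X L τ j) :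
    ∃ g : Δ, g ∉ LD L τ ∧ (j⁻¹)⁻¹ * g ∉ LD L τ := by
  have h0 : τ * j * τ⁻¹ ∉ LD L τ := by
    intro h
    apply j_not_mem D
    have := (LD L τ).mul_mem ((LD L τ).mul_mem ((LD L τ).inv_mem (τ_mem_LD L τ)) h)
      (τ_mem_LD L τ)
    have e : τ⁻¹ * (τ * j * τ⁻¹) * τ = j := by group
    rwa [e] at this
  refine ⟨τ * j * τ⁻¹, h0, ?_⟩
  intro h
  apply h0
  have h4 := le_LD L τ (D.iv j D.jX D.ii)
  have := (LD L τ).mul_mem h ((LD L τ).inv_mem h4)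
  have e : (j⁻¹)⁻¹ * (τ * j * τ⁻¹) * ((τ * j * τ⁻¹)⁻¹ * j * (τ * j * τ⁻¹))⁻¹ = τ * j * τ⁻¹ := by
    group
  rwa [e] at this


/-- Elements of the core of degree `0` are trivial ((v)). -/
theorem core_deg_zero (D : Data X L τ j) {a : ℕ} {x : Δ} (hx : x ∈ X)
    (hN : (τ ^ a)⁻¹ * x * τ ^ a ∈ (LD L τ).normalCore) : x = 1 := by
  by_contra hx1
  obtain ⟨y, hy, hyL⟩ := D.v x hx hx1
  apply hyL
  apply LD_inter D _ (X.mul_mem (X.mul_mem hy (D.τX x hx)) (X.inv_mem hy))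
  have h := hN (y * τ * τ ^ a)
  have e : y * τ * τ ^ a * ((τ ^ a)⁻¹ * x * τ ^ a) * (y * τ * τ ^ a)⁻¹ =
      y * (τ * x * τ⁻¹) * y⁻¹ := by group
  rwa [e] at h

/-- The core contains no element `x τ^(c+1)`, `x ∈ X`. -/
theorem core_pos_false (D : Data X L τ j) {c : ℕ} {x : Δ} (hx : x ∈ X)
    (hN : x * τ ^ (c + 1) ∈ (LD L τ).normalCore) : False := by
  have hnorm : (LD L τ).normalCore.Normal := inferInstance
  -- `g = x τ^(c+1)` commutes with every `y ∈ X`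
  have hcomm : ∀ y ∈ X, x * (τ ^ (c + 1) * y * (τ ^ (c + 1))⁻¹) * x⁻¹ * y⁻¹ = 1 := by
    intro y hy
    have h1 : x * τ ^ (c + 1) * (y * (x * τ ^ (c + 1))⁻¹ * y⁻¹) ∈ (LD L τ).normalCore :=
      (LD L τ).normalCore.mul_mem hN (hnorm.conj_mem _ ((LD L τ).normalCore.inv_mem hN) y)
    have hz : x * (τ ^ (c + 1) * y * (τ ^ (c + 1))⁻¹) * x⁻¹ * y⁻¹ ∈ X :=
      X.mul_mem (X.mul_mem (X.mul_mem hx (conj_pow_mem D.τX (c + 1) y hy)) (X.inv_mem hx))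
        (X.inv_mem hy)
    apply core_deg_zero D (a := 0) hz
    have e : (τ ^ 0)⁻¹ * (x * (τ ^ (c + 1) * y * (τ ^ (c + 1))⁻¹) * x⁻¹ * y⁻¹) * τ ^ 0 =
        x * τ ^ (c + 1) * (y * (x * τ ^ (c + 1))⁻¹ * y⁻¹) := by group
    rw [e]; exact h1
  -- hence `j = θ(z)` for some `z ∈ X`, and (iii) gives `j ∈ L`
  apply D.ii
  have hy : x * j * x⁻¹ ∈ X := X.mul_mem (X.mul_mem hx D.jX) (X.inv_mem hx)
  have h := hcomm _ hy
  have hz : τ ^ c * (x * j * x⁻¹) * (τ ^ c)⁻¹ ∈ X := conj_pow_mem D.τX c _ hy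
  have h3 := D.iii _ hz
  have e : τ * (τ ^ c * (x * j * x⁻¹) * (τ ^ c)⁻¹) * τ⁻¹ = j := by
    have e1 : τ * (τ ^ c * (x * j * x⁻¹) * (τ ^ c)⁻¹) * τ⁻¹ =
        x⁻¹ * (x * (τ ^ (c + 1) * (x * j * x⁻¹) * (τ ^ (c + 1))⁻¹) * x⁻¹ * (x * j * x⁻¹)⁻¹) *
          (x * j) := by
      rw [pow_succ']; group
    rw [e1, h]; group
  rw [e] at h3
  have e2 : j⁻¹ * j * j = j := by group
  rwa [e2] at h3

/-- `⟨L,τ⟩` is core-free. -/
theorem core_free (D : Data X L τ j) (g : Δ) (hg : ∀ x : Δ, x * g * x⁻¹ ∈ LD L τ) : g = 1 := by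
  have hN : g ∈ (LD L τ).normalCore := hg
  have hnorm : (LD L τ).normalCore.Normal := inferInstance
  have hgX : g ∈ LD X τ := by rw [LD_X_top D]; trivial
  obtain ⟨a, b, x, hx, rfl⟩ := LD_form D.τX hgX
  rcases lt_trichotomy a b with hab | hab | hab
  · exfalso
    obtain ⟨c, rfl⟩ : ∃ c, b = a + (c + 1) := ⟨b - a - 1, by omega⟩
    apply core_pos_false D (c := c) hx
    have h := hnorm.conj_mem _ hN (τ ^ a)
    have e : τ ^ a * ((τ ^ a)⁻¹ * x * τ ^ (a + (c + 1))) * (τ ^ a)⁻¹ = x * τ ^ (c + 1) := by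
      rw [pow_add τ a (c + 1)]
      have hc : τ ^ a * τ ^ (c + 1) = τ ^ (c + 1) * τ ^ a := by rw [← pow_add, ← pow_add, add_comm]
      calc τ ^ a * ((τ ^ a)⁻¹ * x * (τ ^ a * τ ^ (c + 1))) * (τ ^ a)⁻¹
          = x * (τ ^ a * τ ^ (c + 1)) * (τ ^ a)⁻¹ := by group
        _ = x * (τ ^ (c + 1) * τ ^ a) * (τ ^ a)⁻¹ := by rw [hc]
        _ = x * τ ^ (c + 1) := by group
    rwa [e] at h
  · subst hab
    have := core_deg_zero D hx hN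
    subst this
    group
  · exfalso
    obtain ⟨c, rfl⟩ : ∃ c, a = b + (c + 1) := ⟨a - b - 1, by omega⟩
    apply core_pos_false D (c := c) (X.inv_mem hx)
    have h := hnorm.conj_mem _ ((LD L τ).normalCore.inv_mem hN) (τ ^ b)
    have e : τ ^ b * ((τ ^ (b + (c + 1)))⁻¹ * x * τ ^ b)⁻¹ * (τ ^ b)⁻¹ = x⁻¹ * τ ^ (c + 1) := by
      rw [pow_add τ b (c + 1)]
      have hc : τ ^ b * τ ^ (c + 1) = τ ^ (c + 1) * τ ^ b := by rw [← pow_add, ← pow_add, add_comm]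
      calc τ ^ b * ((τ ^ b * τ ^ (c + 1))⁻¹ * x * τ ^ b)⁻¹ * (τ ^ b)⁻¹
          = x⁻¹ * (τ ^ b * τ ^ (c + 1)) * (τ ^ b)⁻¹ := by group
        _ = x⁻¹ * (τ ^ (c + 1) * τ ^ b) * (τ ^ b)⁻¹ := by rw [hc]
        _ = x⁻¹ * τ ^ (c + 1) := by group
    rwa [e] at h

/-- **C1 = R1.**  DATA + `Δ` f.p. + `⟨L,τ⟩` f.g.  ==>  `Δ` embeds in a finitely presented simple group. -/
theorem embeds_of_data [Group.IsFinitelyPresented Δ] (D : Data X L τ j) (hfg : (LD L τ).FG) :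
    ∃ (T : Type u) (_ : Group T), Group.IsFinitelyPresented T ∧ IsSimpleGroup T ∧
      ∃ f : Δ →* T, Function.Injective f :=
  B.bridge (LD L τ) hfg j⁻¹ (double_coset D) (core_free D) (three_cosets D)

end Claimed.Agent.R152.C1
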